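import Vale.Agent.P042PN.Ap
import Vale.Agent.P042PU.Un

set_option autoImplicit false
set_option linter.all false

/-!
P042, prime arguments: the major arcs.
-/

namespace Vale.Agent.P042PM

open Polynomial Finset Vale.Agent.P042 Vale.Agent.P042.SS Vale.Agent.P042PA Vale.Agent.P042PN
  Vale.Agent.P042PU Vale.Agent.P005Z.PT

theorem wP_eq (u : ℤ) (v x : ℕ) :
    wP u v x = (Nat.totient v : ℝ) / v * P042PN.lp (u + v * x).toNat := by
  by_cases h : (u + v * x).toNat.Prime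
  · have e : 0 ≤ u + v * x := by
      have := h.pos
      omega
    rw [wP, P042PN.lp, if_pos h, if_pos (show PrL u v x from h),
      ← Int.cast_natCast (R := ℝ) (u + v * x).toNat, Int.toNat_of_nonneg e]
  · rw [wP, P042PN.lp, if_neg h, if_neg (show ¬PrL u v x from h), mul_zero]

theorem cls_eq (u : ℤ) {v q b : ℕ} (hv : 1 ≤ v) (hb : b < q) (M : ℕ) :
    ∑ x ∈ (range M).filter (fun x => x % q = b), P042PN.lp (u + v * x).toNat =
      ∑ n ∈ (Ioc (u - 1).toNat (u + v * M - 1).toNat).filter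
        (fun n : ℕ => (n : ℤ) ≡ u + v * b [ZMOD (v * q : ℕ)]), P042PN.lp n := by
  have hv0 : (0 : ℤ) < v := by exact_mod_cast hv
  have p : ∀ n, P042PN.lp n ≠ 0 → 0 < n := fun n h =>
    Nat.Prime.pos (by_contra fun e => h (if_neg e))
  refine sum_bij_ne_zero (fun x _ _ => (u + v * x).toNat) (fun x hx h => ?_)
    (fun x _ h y _ h' e => ?_) (fun n hn h => ?_) fun _ _ _ => rfl
  · have h1 := p _ h
    obtain ⟨h2, h3⟩ := mem_filter.1 hx
    have h4 : (v : ℤ) * x < v * M := mul_lt_mul_of_pos_left (by exact_mod_cast mem_range.1 h2) hv0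
    have h5 : (0 : ℤ) ≤ v * x := by positivity
    refine mem_filter.2 ⟨mem_Ioc.2 ⟨by omega, by omega⟩, ?_⟩
    rw [Int.toNat_of_nonneg (by omega)]
    refine (Int.modEq_iff_dvd.2 ⟨(x / q : ℕ), ?_⟩).symm
    have h6 : (x : ℤ) = b + q * (x / q : ℕ) := by
      rw [← h3]; exact_mod_cast (Nat.mod_add_div x q).symm
    rw [Nat.cast_mul]
    linear_combination v * h6
  · have h1 := p _ h
    have h2 : (v : ℤ) * x = v * y := by omega
    exact_mod_cast mul_left_cancel₀ hv0.ne' h2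
  · have h1 := p _ h
    obtain ⟨h2, h3⟩ := mem_filter.1 hn
    obtain ⟨h2, h4⟩ := mem_Ioc.1 h2
    obtain ⟨t, ht⟩ := h3.symm.dvd
    have h5 : (n : ℤ) = u + v * (b + q * t) := by
      rw [Nat.cast_mul] at ht
      linear_combination ht
    have h6 : 0 ≤ (b : ℤ) + q * t := le_of_mul_le_mul_left (by omega) hv0
    have h7 : (b : ℤ) + q * t < M := lt_of_mul_lt_mul_left (by omega) hv0.le
    obtain ⟨x, hx⟩ := Int.eq_ofNat_of_zero_le h6
    have h8 : (u + v * x).toNat = n := by rw [← hx, ← h5, Int.toNat_natCast]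
    refine ⟨x, mem_filter.2 ⟨mem_range.2 (by omega), ?_⟩, by rwa [h8], h8⟩
    have h9 : ((x % q : ℕ) : ℤ) = b := by
      rw [Int.natCast_mod, ← hx, Int.add_mul_emod_self_left, ← Int.natCast_mod, Nat.mod_eq_of_lt hb]
    exact_mod_cast h9

theorem cls_le (h : QRH) {u : ℤ} {v q b M X : ℕ} {B : ℝ} (hv : 1 ≤ v) (hb : b < q)
    (hg : Int.gcd u v = 1) (hB : 1 ≤ B) (hu : |(u : ℝ)| ≤ B) (hvB : (v : ℝ) ≤ B) (hM : M ≤ X)
    (hX : 1 ≤ X) :
    |∑ x ∈ (range M).filter (fun x => x % q = b), P042PN.lp (u + v * x).toNat -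
      if b ∈ Un u v q then (v : ℝ) * M / (v * q).totient else 0| ≤
      5 * cN * q * B ^ 2 * (X : ℝ) ^ (95 / 96 : ℝ) := by
  have hN := cN_ge
  have hq : 1 ≤ q := by omega
  have hm : 1 ≤ v * q := Nat.mul_pos hv hq
  have hq1 : (1 : ℝ) ≤ q := by exact_mod_cast hq
  have hX1 : (1 : ℝ) ≤ X := by exact_mod_cast hX
  have hw : 1 ≤ (X : ℝ) ^ (95 / 96 : ℝ) := Real.one_le_rpow hX1 (by norm_num)
  have hl : 1 + Real.log (v * q : ℕ) ≤ q * B := by
    have := Real.log_le_sub_one_of_pos (show (0 : ℝ) < (v * q : ℕ) by exact_mod_cast hm)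
    rw [Nat.cast_mul] at this ⊢
    nlinarith
  have hl0 := Real.log_natCast_nonneg (v * q)
  have k1 : q * B ≤ q * B ^ 2 * (X : ℝ) ^ (95 / 96 : ℝ) := by
    calc q * B = q * B * 1 * 1 := by ring
      _ ≤ q * B * B * (X : ℝ) ^ (95 / 96 : ℝ) := by gcongr
      _ = _ := by ring
  rw [cls_eq u hv hb]
  split_ifs with g
  · have hc := Int.isCoprime_iff_gcd_eq_one.2 (cop_next hg (mem_Un.1 g).2)
    have hvM : (0 : ℤ) ≤ v * M := by positivity
    have t : ∀ y : ℕ, (y : ℝ) ≤ 2 * B * X → |∑ n ∈ (Ioc 0 y).filter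
        (fun n : ℕ => (n : ℤ) ≡ u + v * b [ZMOD (v * q : ℕ)]), P042PN.lp n - y / (v * q).totient| ≤
        2 * cN * (q * B ^ 2 * (X : ℝ) ^ (95 / 96 : ℝ)) := fun y hy => by
      refine (theta_ap h hm hc y).trans ?_
      have a : (y : ℝ) ^ (95 / 96 : ℝ) ≤ 2 * B * (X : ℝ) ^ (95 / 96 : ℝ) := by
        calc _ ≤ (2 * B * X) ^ (95 / 96 : ℝ) := by gcongr
          _ = (2 * B) ^ (95 / 96 : ℝ) * (X : ℝ) ^ (95 / 96 : ℝ) :=
            Real.mul_rpow (by linarith) (by linarith)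
          _ ≤ _ := by
            gcongr
            simpa using Real.rpow_le_rpow_of_exponent_le (show 1 ≤ 2 * B by linarith)
              (show (95 / 96 : ℝ) ≤ 1 by norm_num)
      calc _ ≤ cN * (q * B) * (2 * B * (X : ℝ) ^ (95 / 96 : ℝ)) := by gcongr
        _ = _ := by ring
    obtain ⟨a1, a2⟩ := abs_le.1 hu
    have hMX : (M : ℝ) ≤ X := by exact_mod_cast hM
    have b0 : (v : ℝ) * M ≤ B * X := by gcongr
    have b1 : B ≤ B * X := by nlinarith
    have c0 : (((u - 1).toNat : ℕ) : ℤ) ≤ |u| := by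
      have := le_abs_self u
      have := abs_nonneg u
      omega
    have c1 : (((u + v * M - 1).toNat : ℕ) : ℤ) ≤ |u| + v * M := by
      have := le_abs_self u
      have := abs_nonneg u
      omega
    have c2 : |(((u + v * M - 1).toNat : ℕ) : ℤ) - ((u - 1).toNat : ℕ) - v * M| ≤ |u| + 1 := by
      have := neg_abs_le u
      have := abs_nonneg u
      rw [abs_le]
      omega
    have c3 : (u - 1).toNat ≤ (u + v * M - 1).toNat := by omega
    generalize (u - 1).toNat = y0 at *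
    generalize (u + v * M - 1).toNat = y1 at *
    have d0 : (y0 : ℝ) ≤ |(u : ℝ)| := by exact_mod_cast c0
    have d1 : (y1 : ℝ) ≤ |(u : ℝ)| + v * M := by exact_mod_cast c1
    have d2 : |(y1 : ℝ) - y0 - v * M| ≤ |(u : ℝ)| + 1 := by exact_mod_cast c2
    have t0 := t y0 (by linarith)
    have t1 := t y1 (by linarith)
    rw [sum_filter] at t0 t1 ⊢
    rw [← sum_Ioc_consecutive _ (Nat.zero_le y0) c3] at t1
    have hφ : (1 : ℝ) ≤ (v * q).totient := by exact_mod_cast Nat.totient_pos.2 hm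
    have d3 : |((y1 : ℝ) - y0 - v * M) / (v * q).totient| ≤ 2 * (q * B) := by
      rw [abs_div, abs_of_pos (by linarith : (0 : ℝ) < (v * q).totient)]
      refine (div_le_self (abs_nonneg _) hφ).trans ?_
      nlinarith
    rw [sub_div, sub_div] at d3
    rw [abs_le] at t0 t1 d3 ⊢
    constructor <;> nlinarith
  · rw [sub_zero, abs_of_nonneg (sum_nonneg fun _ _ => lp_nonneg _)]
    refine (theta_ap_not hm (fun a => g (mem_Un.2 ⟨hb, ?_⟩)) _).trans (by nlinarith)
    rw [Nat.cast_mul] at a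
    exact a.of_mul_right_right

theorem part_le (h : QRH) (f : ℤ[X]) (a : ℤ) {u : ℤ} {v q M X : ℕ} {B : ℝ} (hv : 1 ≤ v)
    (hq : 1 ≤ q) (hg : Int.gcd u v = 1) (hB : 1 ≤ B) (hu : |(u : ℝ)| ≤ B) (hvB : (v : ℝ) ≤ B)
    (hM : M ≤ X) (hX : 1 ≤ X) :
    ‖∑ x ∈ range M, ((wP u v x : ℂ) * e (a * ((f.eval (x : ℤ) : ℤ) : ℝ) / q) - GamL f u v a q)‖ ≤
      5 * cN * (q * B) ^ 2 * (X : ℝ) ^ (95 / 96 : ℝ) := by
  have hv0 : (0 : ℝ) < v := by exact_mod_cast hv
  have e1 : ∑ x ∈ range M, ((wP u v x : ℂ) * e (a * ((f.eval (x : ℤ) : ℤ) : ℝ) / q) -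
      GamL f u v a q) = ∑ b ∈ range q, (((Nat.totient v : ℝ) / v *
        (∑ x ∈ (range M).filter (fun x => x % q = b), P042PN.lp (u + v * x).toNat -
          if b ∈ Un u v q then (v : ℝ) * M / (v * q).totient else 0) : ℝ) : ℂ) *
        e (a * ((f.eval (b : ℤ) : ℤ) : ℝ) / q) := by
    simp only [mul_sub, Complex.ofReal_sub, sub_mul, sum_sub_distrib]
    refine congrArg₂ _ ?_ ?_
    · rw [← sum_fiberwise_of_maps_to (s := range M) (t := range q) (g := fun x => x % q)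
        fun x _ => mem_range.2 (Nat.mod_lt _ hq)]
      refine sum_congr rfl fun b _ => ?_
      rw [mul_sum, Complex.ofReal_sum, sum_mul]
      refine sum_congr rfl fun x hx => ?_
      rw [wP_eq, ← (mem_filter.1 hx).2, ← phase_period f a hq (x % q) (x / q), Nat.mod_add_div]
    · rw [sum_const, card_range, nsmul_eq_mul, GamL, ← mul_assoc, mul_sum,
        ← sum_subset (show Un u v q ⊆ range q from filter_subset _ _) fun b _ g => by
          rw [if_neg g, mul_zero, Complex.ofReal_zero, zero_mul]]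
      refine sum_congr rfl fun b g => ?_
      rw [if_pos g, ← Complex.ofReal_natCast M, ← Complex.ofReal_mul]
      refine congrArg (fun t : ℝ => (t : ℂ) * _) ?_
      field_simp
  rw [e1]
  refine (norm_sum_le_of_le _ (n := fun _ => 5 * cN * q * B ^ 2 * (X : ℝ) ^ (95 / 96 : ℝ))
    fun b hb => ?_).trans (le_of_eq ?_)
  · rw [norm_mul, norm_e, mul_one, Complex.norm_real, Real.norm_eq_abs, abs_mul]
    refine (mul_le_of_le_one_left (abs_nonneg _) ?_).trans
      (cls_le h hv (mem_range.1 hb) hg hB hu hvB hM hX)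
    rw [abs_of_nonneg (by positivity), div_le_one hv0]
    exact_mod_cast Nat.totient_le v
  · rw [sum_const, card_range, nsmul_eq_mul]
    ring

theorem majP_of (h : QRH) : MajPStmt := by
  have hN := cN_ge
  refine ⟨171 * cN, by linarith, fun k f u v H x0 X q a g C θ B hH hq hv hg hB hu hvB hG => ?_⟩
  have hq1 : (1 : ℝ) ≤ q := by exact_mod_cast hq
  have hH0 : (0 : ℝ) < H := by exact_mod_cast hH
  have hX : 1 ≤ X := hG.x0pos.trans hG.x0lt.le
  set β : ℝ := θ - (a : ℝ) / q with hβ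
  have hg0 : 0 ≤ g := by
    have h1 := hG.gpos x0 le_rfl
    have h2 := hG.gle x0 le_rfl hG.x0lt.le
    linarith only [h1, h2]
  have hgH : 0 ≤ g / H := div_nonneg hg0 hH0.le
  set w : ℕ → ℂ := fun x => ((gp f x * vt H (fv f x) : ℝ) : ℂ) * e (β * (fv f x : ℝ)) with hw
  set gg : ℕ → ℂ := fun x => (wP u v x : ℂ) * e (a * ((f.eval (x : ℤ) : ℤ) : ℝ) / q) -
    GamL f u v a q with hgg
  have hsum : SxP f u v H x0 X θ =
      ∑ x ∈ Ico x0 X, w x * gg x + GamL f u v a q * ∑ x ∈ Ico x0 X, w x := by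
    unfold SxP
    rw [mul_sum, ← sum_add_distrib]
    refine sum_congr rfl fun x _ => ?_
    have h1 : θ * (fv f x : ℝ) = β * (fv f x : ℝ) + a * ((f.eval (x : ℤ) : ℤ) : ℝ) / q := by
      rw [hβ]
      unfold fv
      ring
    rw [h1, e_add, Complex.ofReal_mul]
    simp only [hw, hgg]
    ring
  have hab := PS463.abel w gg x0 X hG.x0lt.le _ fun M hM => part_le h f a hv hq hg hB hu hvB hM hX
  obtain ⟨hv1, hv2⟩ := var_of vt_holds k f H x0 X g C β hH hG
  have hwa : ‖w x0‖ ≤ g / H := hv1 x0 le_rfl hG.x0lt.le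
  have hwb : ‖w X‖ ≤ g / H := hv1 X hG.x0lt.le le_rfl
  have hwv : ∑ x ∈ Ico x0 X, ‖w (x + 1) - w x‖ ≤ 32 * (1 + |β| * H) * g / H := hv2
  have hri := ri_holds k f H x0 X g C β hH hG
  have hβH : 0 ≤ |β| * H := mul_nonneg (abs_nonneg _) hH0.le
  have e1 : 32 * (1 + |β| * H) * g / H = 32 * ((1 + |β| * H) * (g / H)) := by ring
  rw [e1] at hwv hri
  have k1 : 1 ≤ (q * B) ^ 2 * (X : ℝ) ^ (95 / 96 : ℝ) :=
    one_le_mul_of_one_le_of_one_le (one_le_pow₀ (one_le_mul_of_one_le_of_one_le hq1 hB))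
      (Real.one_le_rpow (by exact_mod_cast hX) (by norm_num))
  have h4 : 0 ≤ (1 + |β| * H) * (g / H) := by positivity
  have h1 : ‖∑ x ∈ Ico x0 X, w x * gg x‖ ≤
      5 * cN * (q * B) ^ 2 * (X : ℝ) ^ (95 / 96 : ℝ) * (34 * ((1 + |β| * H) * (g / H))) := by
    refine hab.trans (mul_le_mul_of_nonneg_left ?_ (by positivity))
    nlinarith only [hwa, hwb, hwv, hgH, hβH, mul_nonneg hβH hgH]
  have h2 : ‖GamL f u v a q * ∑ x ∈ Ico x0 X, w x - GamL f u v a q * Vk H β‖ ≤
      32 * ((1 + |β| * H) * (g / H)) := by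
    rw [← mul_sub, norm_mul]
    exact (mul_le_of_le_one_left (norm_nonneg _) (norm_GamL_le f a hv hq hg)).trans hri
  rw [hsum, add_sub_assoc]
  refine (norm_add_le _ _).trans ((add_le_add h1 h2).trans ?_)
  have h5 := mul_le_mul_of_nonneg_right (mul_le_mul hN k1 zero_le_one (by linarith)) h4
  nlinarith only [h4, h5]

end Vale.Agent.P042PM
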